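import Vale.Agent.P067.Frames.Basic

/-!
Every matrix of determinant one is a product of elementary transvections times a congruent one.
-/

namespace Vale.Agent.P067.Frames

open Matrix

variable {ι : Type} [Fintype ι] [DecidableEq ι] {R : Type} [CommRing R]

/-- The elementary transvection `1 + x E_ab`. -/
def elem (a b : ι) (h : a ≠ b) (x : R) : SpecialLinearGroup ι R :=
  tv (x • e a) (e b) (by rw [dotProduct_comm, dot_e]; simp [e, Pi.single_eq_of_ne h.symm])

/-- The group generated by the elementary transvections. -/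
def elemGroup : Subgroup (SpecialLinearGroup ι R) :=
  Subgroup.closure {g | ∃ (a b : ι) (h : a ≠ b) (x : R), g = elem a b h x}

theorem elem_mem (a b : ι) (h : a ≠ b) (x : R) : elem a b h x ∈ elemGroup :=
  Subgroup.subset_closure ⟨a, b, h, x, rfl⟩

theorem elem_mulVec (a b : ι) (h : a ≠ b) (x : R) (u : ι → R) :
    (elem a b h x : Matrix ι ι R) *ᵥ u = u + (u b * x) • e a := by
  rw [elem, tv_mulVec, dotProduct_comm, dot_e, smul_smul]

theorem tv_add {v v' r : ι → R} (h : r ⬝ᵥ v = 0) (h' : r ⬝ᵥ v' = 0) (h'' : r ⬝ᵥ (v + v') = 0) :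
    tv (v + v') r h'' = tv v r h * tv v' r h' :=
  Subtype.ext (by
    show 1 + vecMulVec (v + v') r = (1 + vecMulVec v r) * (1 + vecMulVec v' r)
    rw [add_mul, mul_add, mul_add, one_mul, one_mul, mul_one, vecMulVec_mul_vecMulVec, h',
      add_vecMulVec]
    simp only [zero_smul, vecMulVec_zero, add_zero]
    abel)

/-- A column operation with a basis vector is a product of elementary transvections. -/
theorem tv_mem_elem (j : ι) (s : Finset ι) (v : ι → R) (hs : ∀ i, i ∉ s → v i = 0)
    (hj : j ∉ s) (h : e j ⬝ᵥ v = 0) : tv v (e j) h ∈ elemGroup := by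
  induction s using Finset.induction_on generalizing v with
  | empty =>
    obtain rfl : v = 0 := funext fun i => hs i (Finset.notMem_empty i)
    have : tv (0 : ι → R) (e j) h = 1 := Subtype.ext (by
      show 1 + vecMulVec 0 (e j) = 1
      simp)
    rw [this]
    exact one_mem _
  | insert a s has ih =>
    have haj : a ≠ j := fun h => hj (h ▸ Finset.mem_insert_self a s)
    have hjs : j ∉ s := fun h => hj (Finset.mem_insert_of_mem h)
    set v' : ι → R := Function.update v a 0 with hv'
    have hsplit : v = v a • e a + v' := by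
      funext i
      rcases eq_or_ne i a with rfl | hia
      · simp [hv', e]
      · simp [hv', e, hia]
    have h' : e j ⬝ᵥ v' = 0 := by
      rw [dotProduct_comm, dot_e, hv', Function.update_of_ne haj.symm]
      exact hs j hj
    have h1 : (e j : ι → R) ⬝ᵥ (v a • (e a : ι → R)) = 0 := by
      rw [dotProduct_comm, dot_e]; simp [e, Pi.single_eq_of_ne haj.symm]
    have heq : tv v (e j) h = tv (v a • e a) (e j) h1 * tv v' (e j) h' := by
      rw [← tv_add h1 h' (by rw [← hsplit]; exact h)]
      congr 1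
    rw [heq]
    refine mul_mem (elem_mem a j haj (v a)) (ih v' (fun i hi => ?_) hjs h')
    rcases eq_or_ne i a with rfl | hia
    · simp [hv']
    · rw [hv', Function.update_of_ne hia]
      exact hs i (by simp [hia, hi])

variable [IsDomain R] [IsPrincipalIdealRing R] {π : R} (hπ : Prime π) (s : ℕ)
include hπ

/-- One column: fixing the basis vectors in `J`, elementary transvections move `u` to `e j` modulo
`π ^ s`, if `u` is not zero outside `J` modulo `π` and, when `j` is alone there, `u j` is one. -/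
theorem exists_elem_col {J : Finset ι} {j : ι} (hj : j ∉ J) {u : ι → R}
    (hu : ∃ i, i ∉ J ∧ ¬ π ∣ u i) (h1 : (∀ i, i ∉ J → i = j) → π ^ s ∣ u j - 1) :
    ∃ g : SpecialLinearGroup ι R, g ∈ elemGroup ∧
      (∀ b ∈ J, (g : Matrix ι ι R) *ᵥ e b = e b) ∧ ∀ a, π ^ s ∣ ((g : Matrix ι ι R) *ᵥ u) a - e j a := by
  -- make the entry at `j` one modulo `π ^ s`
  obtain ⟨g₁, hg₁, hfix₁, hj₁⟩ : ∃ g₁ : SpecialLinearGroup ι R, g₁ ∈ elemGroup ∧ (∀ b ∈ J, (g₁ : Matrix ι ι R) *ᵥ e b = e b) ∧
      π ^ s ∣ ((g₁ : Matrix ι ι R) *ᵥ u) j - 1 := by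
    by_cases hone : ∀ i, i ∉ J → i = j
    · exact ⟨1, one_mem _, fun b _ => one_mulVec _, by
        rw [show ((1 : SpecialLinearGroup ι R) : Matrix ι ι R) *ᵥ u = u from one_mulVec u]
        exact h1 hone⟩
    push Not at hone
    obtain ⟨k, hk, hkj⟩ := hone
    obtain ⟨i, hi, hπi⟩ := hu
    have inv : ∀ x : R, ¬ π ∣ x → ∀ y, ∃ t, π ^ s ∣ x * t - y := fun x hx y => by
      obtain ⟨a, b, hab⟩ := (((hπ.irreducible).coprime_iff_not_dvd.2 hx).symm).pow_right (n := s)
      exact ⟨a * y, -(b * y), by linear_combination y * hab⟩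
    rcases eq_or_ne i j with rfl | hij
    · -- first one at `k`, then at `j`
      obtain ⟨t, ht⟩ := inv _ hπi (1 - u k)
      obtain ⟨t', ht'⟩ : ∃ t', t' = 1 - u i := ⟨_, rfl⟩
      refine ⟨elem i k (Ne.symm hkj) t' * elem k i hkj t, mul_mem (elem_mem _ _ _ _) (elem_mem _ _ _ _),
        fun b hb => ?_, ?_⟩
      · have hbk : b ≠ k := fun h => hk (h ▸ hb)
        have hbi : b ≠ i := fun h => hi (h ▸ hb)
        rw [mulVec_mul, elem_mulVec, elem_mulVec]
        simp [e, Pi.single_eq_of_ne (Ne.symm hbk), Pi.single_eq_of_ne (Ne.symm hbi)]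
      · rw [mulVec_mul, elem_mulVec, elem_mulVec]
        simp only [Pi.add_apply, Pi.smul_apply, e, Pi.single_eq_same, smul_eq_mul, mul_one,
          Pi.single_eq_of_ne (Ne.symm hkj), mul_zero, add_zero]
        rw [ht', show u i + (u k + u i * t) * (1 - u i) - 1 =
          (u i * t - (1 - u k)) * (1 - u i) by ring]
        exact ht.mul_right _
    · obtain ⟨t, ht⟩ := inv _ hπi (1 - u j)
      refine ⟨elem j i (Ne.symm hij) t, elem_mem _ _ _ _, fun b hb => ?_, ?_⟩
      · have hbi : b ≠ i := fun h => hi (h ▸ hb)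
        rw [elem_mulVec]
        simp [e, Pi.single_eq_of_ne (Ne.symm hbi)]
      · rw [elem_mulVec]
        simp only [Pi.add_apply, Pi.smul_apply, e, Pi.single_eq_same, smul_eq_mul, mul_one]
        rwa [show u j + u i * t - 1 = u i * t - (1 - u j) by ring]
  set u₁ := (g₁ : Matrix ι ι R) *ᵥ u with hu₁
  set v : ι → R := fun a => if a = j then 0 else -u₁ a with hv
  have hv0 : e j ⬝ᵥ v = 0 := by rw [dotProduct_comm, dot_e]; simp [hv]
  refine ⟨tv v (e j) hv0 * g₁, mul_mem (tv_mem_elem j (Finset.univ.erase j) v (fun i hi => ?_)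
    (Finset.notMem_erase j _) hv0) hg₁, fun b hb => ?_, fun a => ?_⟩
  · obtain rfl : i = j := by simpa using hi
    simp [hv]
  · rw [mulVec_mul, hfix₁ b hb, tv_fix]
    exact Pi.single_eq_of_ne (fun h : b = j => hj (h ▸ hb)) _
  · rw [mulVec_mul, ← hu₁, tv_mulVec, dotProduct_comm, dot_e]
    rcases eq_or_ne a j with rfl | haj
    · simpa [hv, e] using hj₁
    · simp only [Pi.add_apply, Pi.smul_apply, hv, haj, if_false, smul_eq_mul, e,
        Pi.single_eq_of_ne haj, sub_zero]
      rw [show u₁ a + u₁ j * -u₁ a = -(u₁ a * (u₁ j - 1)) by ring]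
      exact dvd_neg.2 (hj₁.mul_left _)

/-- Representatives made of elementary transvections. -/
theorem exists_elem_rep (hs : s ≠ 0) (g : SpecialLinearGroup ι R) :
    ∃ h ∈ elemGroup, h⁻¹ * g ∈ cong (π ^ s) := by
  suffices key : ∀ J : Finset ι, ∃ h ∈ elemGroup, ∀ b ∈ J, ∀ a,
      π ^ s ∣ ((h * g : SpecialLinearGroup ι R) : Matrix ι ι R) a b - (1 : Matrix ι ι R) a b by
    obtain ⟨h, hh, hcol⟩ := key Finset.univ
    exact ⟨h⁻¹, inv_mem hh, by rw [inv_inv]; exact mem_cong.2 fun a b => hcol b (Finset.mem_univ b) a⟩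
  intro J
  induction J using Finset.induction_on with
  | empty => exact ⟨1, one_mem _, fun b hb => absurd hb (Finset.notMem_empty b)⟩
  | insert j J hj ih =>
    obtain ⟨h, hh, hcol⟩ := ih
    set M : SpecialLinearGroup ι R := h * g with hM
    set u : ι → R := fun a => (M : Matrix ι ι R) a j with hu
    have hinv : ∀ b, ∑ a, ((M⁻¹ : SpecialLinearGroup ι R) : Matrix ι ι R) j a *
        (M : Matrix ι ι R) a b = (1 : Matrix ι ι R) j b := fun b => by
      rw [← Matrix.mul_apply]
      exact congrFun (congrFun (congrArg Subtype.val (inv_mul_cancel M)) j) b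
    have hrow : ∀ b ∈ J, π ^ s ∣ ((M⁻¹ : SpecialLinearGroup ι R) : Matrix ι ι R) j b := by
      intro b hb
      have h2 : ∑ a, ((M⁻¹ : SpecialLinearGroup ι R) : Matrix ι ι R) j a *
          ((M : Matrix ι ι R) a b - (1 : Matrix ι ι R) a b) =
          (1 : Matrix ι ι R) j b - ((M⁻¹ : SpecialLinearGroup ι R) : Matrix ι ι R) j b := by
        simp only [mul_sub, Finset.sum_sub_distrib, hinv b]
        congr 1
        rw [← Matrix.mul_apply, Matrix.mul_one]
      have h3 : π ^ s ∣ (1 : Matrix ι ι R) j b - ((M⁻¹ : SpecialLinearGroup ι R) : Matrix ι ι R) j b :=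
        h2 ▸ Finset.dvd_sum fun a _ => (hcol b hb a).mul_left _
      rwa [Matrix.one_apply_ne (fun h => hj (by rw [h]; exact hb) : j ≠ b), zero_sub, dvd_neg] at h3
    have hsp : π ∣ π ^ s := dvd_pow_self π hs
    have hex : ∃ i, i ∉ J ∧ ¬ π ∣ u i := by
      by_contra hcon
      push Not at hcon
      refine hπ.not_dvd_one ?_
      have := hinv j
      rw [Matrix.one_apply_eq] at this
      rw [← this]
      refine Finset.dvd_sum fun a _ => ?_
      by_cases ha : a ∈ J
      · exact ((hsp.trans (hrow a ha))).mul_right _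
      · exact (hcon a ha).mul_left _
    have hone : (∀ i, i ∉ J → i = j) → π ^ s ∣ u j - 1 := by
      intro honly
      -- modulo `π ^ s` only the column `j` differs from the identity, so the determinant is `u j`
      set mk := Ideal.Quotient.mk (Ideal.span ({π ^ s} : Set R))
      have hmap : (M : Matrix ι ι R).map mk =
          (1 : Matrix ι ι _).updateCol j (fun a => mk (u a)) := by
        ext a b
        rcases eq_or_ne b j with rfl | hb
        · simp [hu]
        · rw [Matrix.map_apply, Matrix.updateCol_ne hb]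
          have hbJ : b ∈ J := by
            by_contra hbJ
            exact hb (honly b hbJ)
          rw [show (1 : Matrix ι ι _) a b = mk ((1 : Matrix ι ι R) a b) by
            simp [Matrix.one_apply, apply_ite mk]]
          exact Ideal.Quotient.eq.2 (Ideal.mem_span_singleton.2 (hcol b hbJ a))
      have hdet : mk (u j) = 1 := by
        have h4 := congrArg Matrix.det hmap
        rw [← RingHom.mapMatrix_apply, ← RingHom.map_det, M.2, map_one] at h4
        rw [h4, ← Matrix.cramer_apply, Matrix.cramer_one]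
        rfl
      rw [← map_one mk] at hdet
      exact Ideal.mem_span_singleton.1 (Ideal.Quotient.eq.1 hdet)
    obtain ⟨k, hk, hkfix, hkcol⟩ := exists_elem_col hπ s hj hex hone
    refine ⟨k * h, mul_mem hk hh, fun b hb a => ?_⟩
    have e1 : ((k * h * g : SpecialLinearGroup ι R) : Matrix ι ι R) a b =
        ((k : Matrix ι ι R) *ᵥ fun a => (M : Matrix ι ι R) a b) a := by
      rw [mul_assoc, ← hM]
      rfl
    rw [e1]
    rcases Finset.mem_insert.1 hb with rfl | hbJ
    · have := hkcol a
      rwa [e, Pi.single_apply, ← Matrix.one_apply] at this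
    · have hd : π ^ s ∣ ((k : Matrix ι ι R) *ᵥ ((fun a => (M : Matrix ι ι R) a b) - e b)) a := by
        refine Finset.dvd_sum fun l _ => Dvd.dvd.mul_left ?_ _
        have := hcol b hbJ l
        rwa [Pi.sub_apply, e, Pi.single_apply, ← Matrix.one_apply]
      rwa [mulVec_sub, hkfix b hbJ, Pi.sub_apply, e, Pi.single_apply, ← Matrix.one_apply] at hd

end Vale.Agent.P067.Frames
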