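import Vale.Agent.P067.Frames.Basic

/-!
The pointwise stabiliser of some basis vectors: a block group and a commutative kernel.
-/

namespace Vale.Agent.P067.Frames

open Matrix

variable {ι : Type} [Fintype ι] [DecidableEq ι] {R : Type} [CommRing R]

/-- The matrices fixing the basis vectors in `J`. -/
def stab (J : Finset ι) : Subgroup (SpecialLinearGroup ι R) where
  carrier := {g | ∀ b ∈ J, (g : Matrix ι ι R) *ᵥ e b = e b}
  one_mem' b _ := one_mulVec _
  mul_mem' {g h} hg hh b hb := by rw [mulVec_mul, hh b hb, hg b hb]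
  inv_mem' {g} hg b hb := by
    have h := mulVec_inv g (e (R := R) b)
    rwa [hg b hb] at h

theorem mem_stab {J : Finset ι} {g : SpecialLinearGroup ι R} :
    g ∈ stab J ↔ ∀ b ∈ J, (g : Matrix ι ι R) *ᵥ e b = e b := Iff.rfl

theorem stab_entry {J : Finset ι} {g : SpecialLinearGroup ι R} (hg : g ∈ stab J) (a : ι) {b : ι}
    (hb : b ∈ J) : (g : Matrix ι ι R) a b = (1 : Matrix ι ι R) a b := by
  have h := congrFun (hg b hb) a
  rwa [e, mulVec_single_one, Pi.single_apply, ← Matrix.one_apply] at h

variable (J : Finset ι)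

/-- The indices outside `J`. -/
abbrev Out : Type := {x // x ∉ J}

/-- Splitting the indices into those in `J` and the others. -/
def split : {x // x ∈ J} ⊕ Out J ≃ ι := Equiv.sumCompl fun x => x ∈ J

theorem det_split (g : Matrix (Out J) (Out J) R) (B : Matrix {x // x ∈ J} (Out J) R) :
    (Matrix.reindex (split J) (split J) (fromBlocks 1 B 0 g)).det = g.det := by
  rw [Matrix.det_reindex_self, det_fromBlocks_zero₂₁, det_one, one_mul]

/-- The block embedding of the matrices on the indices outside `J`. -/
def blockHom : SpecialLinearGroup (Out J) R →* SpecialLinearGroup ι R where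
  toFun g := ⟨Matrix.reindex (split J) (split J) (fromBlocks 1 0 0 (g : Matrix (Out J) (Out J) R)),
    (det_split J _ 0).trans g.2⟩
  map_one' := Subtype.ext (by
    show Matrix.reindex (split J) (split J) (fromBlocks 1 0 0 1) = 1
    rw [fromBlocks_one, Matrix.reindex_apply, submatrix_one_equiv])
  map_mul' g h := Subtype.ext (by
    show Matrix.reindex (split J) (split J)
        (fromBlocks 1 0 0 ((g : Matrix (Out J) (Out J) R) * (h : Matrix (Out J) (Out J) R))) =
      Matrix.reindex (split J) (split J) (fromBlocks 1 0 0 (g : Matrix (Out J) (Out J) R)) *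
        Matrix.reindex (split J) (split J) (fromBlocks 1 0 0 (h : Matrix (Out J) (Out J) R))
    simp [Matrix.reindex_apply, submatrix_mul_equiv, fromBlocks_multiply])

theorem blockHom_out (g : SpecialLinearGroup (Out J) R) (a b : Out J) :
    (blockHom J g : Matrix ι ι R) a b = (g : Matrix (Out J) (Out J) R) a b := by
  show Matrix.reindex (split J) (split J) (fromBlocks 1 0 0 _) a.1 b.1 = _
  rw [Matrix.reindex_apply, submatrix_apply]
  simp [split, a.2, b.2]

theorem blockHom_in (g : SpecialLinearGroup (Out J) R) {a b : ι} (h : a ∈ J ∨ b ∈ J) :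
    (blockHom J g : Matrix ι ι R) a b = (1 : Matrix ι ι R) a b := by
  show Matrix.reindex (split J) (split J) (fromBlocks 1 0 0 _) a b = _
  rw [Matrix.reindex_apply, submatrix_apply]
  by_cases ha : a ∈ J <;> by_cases hb : b ∈ J
  · simp [split, ha, hb, Matrix.one_apply]
  · have hab : a ≠ b := fun hab => hb (hab ▸ ha)
    simp [split, ha, hb, hab]
  · have hab : a ≠ b := fun hab => ha (hab ▸ hb)
    simp [split, ha, hb, hab]
  · exact absurd h (by simp [ha, hb])

theorem blockHom_injective : Function.Injective (blockHom (R := R) J) := fun g h hgh =>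
  Subtype.ext (Matrix.ext fun a b => by
    rw [← blockHom_out J g a b, ← blockHom_out J h a b, hgh])

theorem blockHom_mem_stab (g : SpecialLinearGroup (Out J) R) : blockHom J g ∈ stab J := by
  intro b hb
  funext a
  rw [e, mulVec_single_one, Pi.single_apply, ← Matrix.one_apply]
  exact blockHom_in J g (Or.inr hb)

theorem stab_eq {g : SpecialLinearGroup ι R} (hg : g ∈ stab J) :
    (g : Matrix ι ι R) = Matrix.reindex (split J) (split J)
      (fromBlocks 1 (Matrix.of fun a b => (g : Matrix ι ι R) a.1 b.1) 0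
        (Matrix.of fun a b : Out J => (g : Matrix ι ι R) a.1 b.1)) := by
  ext a b
  rw [Matrix.reindex_apply, submatrix_apply]
  by_cases ha : a ∈ J <;> by_cases hb : b ∈ J
  · simp [split, ha, hb, stab_entry hg a hb, Matrix.one_apply]
  · simp [split, ha, hb]
  · simp [split, ha, hb, stab_entry hg a hb, show a ≠ b from fun h => ha (h ▸ hb)]
  · simp [split, ha, hb]

/-- The block of a matrix in the stabiliser. -/
def proj : stab (R := R) J →* SpecialLinearGroup (Out J) R where
  toFun g := ⟨Matrix.of fun a b : Out J => ((g : SpecialLinearGroup ι R) : Matrix ι ι R) a.1 b.1, by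
    rw [← det_split J _ (Matrix.of fun a b => ((g : SpecialLinearGroup ι R) : Matrix ι ι R) a.1 b.1),
      ← stab_eq J g.2]
    exact (g : SpecialLinearGroup ι R).2⟩
  map_one' := Subtype.ext (Matrix.ext fun a b => by
    show (1 : Matrix ι ι R) a.1 b.1 = (1 : Matrix (Out J) (Out J) R) a b
    simp [Matrix.one_apply, Subtype.ext_iff])
  map_mul' g h := Subtype.ext (Matrix.ext fun a b => by
    show (((g : SpecialLinearGroup ι R) : Matrix ι ι R) *
        ((h : SpecialLinearGroup ι R) : Matrix ι ι R)) a.1 b.1 =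
      ∑ l : Out J, ((g : SpecialLinearGroup ι R) : Matrix ι ι R) a.1 l.1 *
        ((h : SpecialLinearGroup ι R) : Matrix ι ι R) l.1 b.1
    rw [Matrix.mul_apply, ← Fintype.sum_subtype_add_sum_subtype fun l => l ∈ J,
      Finset.sum_eq_zero fun (l : {x // x ∈ J}) _ => by
        rw [stab_entry g.2 a.1 l.2, Matrix.one_apply_ne fun (h : a.1 = l.1) => a.2 (h ▸ l.2),
          zero_mul], zero_add])

theorem proj_apply (g : stab (R := R) J) (a b : Out J) :
    (proj J g : Matrix (Out J) (Out J) R) a b =
      ((g : SpecialLinearGroup ι R) : Matrix ι ι R) a.1 b.1 := rfl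

theorem proj_blockHom (g : SpecialLinearGroup (Out J) R) :
    proj J ⟨blockHom J g, blockHom_mem_stab J g⟩ = g :=
  Subtype.ext (Matrix.ext fun a b => (proj_apply J _ a b).trans (blockHom_out J g a b))

/-- An element of the kernel of the block is `1` plus a matrix supported in `J × (not J)`. -/
theorem proj_ker_entry {g : stab (R := R) J} (hg : proj J g = 1) (a b : ι) :
    ((g : SpecialLinearGroup ι R) : Matrix ι ι R) a b - (1 : Matrix ι ι R) a b = 0 ∨
      a ∈ J ∧ b ∉ J := by
  by_cases hb : b ∈ J
  · exact Or.inl (by rw [stab_entry g.2 a hb, sub_self])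
  by_cases ha : a ∈ J
  · exact Or.inr ⟨ha, hb⟩
  refine Or.inl ?_
  have h := proj_apply J g ⟨a, ha⟩ ⟨b, hb⟩
  rw [hg] at h
  rw [← h]
  show (1 : Matrix (Out J) (Out J) R) _ _ - _ = 0
  simp [Matrix.one_apply, Subtype.ext_iff]

/-- Multiplication in the kernel of the block adds the matrices. -/
theorem proj_ker_mul {g h : stab (R := R) J} (hg : proj J g = 1) (hh : proj J h = 1) :
    (((g * h : stab (R := R) J) : SpecialLinearGroup ι R) : Matrix ι ι R) - 1 =
      (((g : SpecialLinearGroup ι R) : Matrix ι ι R) - 1) +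
        (((h : SpecialLinearGroup ι R) : Matrix ι ι R) - 1) := by
  show ((g : SpecialLinearGroup ι R) : Matrix ι ι R) *
    ((h : SpecialLinearGroup ι R) : Matrix ι ι R) - 1 = _
  have h0 : (((g : SpecialLinearGroup ι R) : Matrix ι ι R) - 1) *
      (((h : SpecialLinearGroup ι R) : Matrix ι ι R) - 1) = 0 := by
    ext a b
    rw [Matrix.mul_apply, Matrix.zero_apply]
    refine Finset.sum_eq_zero fun l _ => ?_
    rcases proj_ker_entry J hg a l with h1 | ⟨-, hl⟩
    · rw [Matrix.sub_apply, h1, zero_mul]
    rcases proj_ker_entry J hh l b with h2 | ⟨hl', -⟩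
    · rw [Matrix.sub_apply, Matrix.sub_apply, h2, mul_zero]
    · exact absurd hl' hl
  rw [sub_mul, mul_sub, mul_sub, mul_one, one_mul, one_mul] at h0
  rw [← sub_eq_zero, ← h0]
  abel

theorem proj_ker_comm {g h : stab (R := R) J} (hg : proj J g = 1) (hh : proj J h = 1) :
    g * h = h * g :=
  Subtype.ext (Subtype.ext (sub_left_injective (b := (1 : Matrix ι ι R))
    ((proj_ker_mul J hg hh).trans ((add_comm _ _).trans (proj_ker_mul J hh hg).symm))))

theorem proj_ker_pow {g : stab (R := R) J} (hg : proj J g = 1) (p : ℕ) [CharP R p] :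
    g ^ p = 1 := by
  have key : ∀ k : ℕ, (((g ^ k : stab (R := R) J) : SpecialLinearGroup ι R) : Matrix ι ι R) - 1 =
      k • (((g : SpecialLinearGroup ι R) : Matrix ι ι R) - 1) := by
    intro k
    induction k with
    | zero => rw [zero_smul]; exact sub_self _
    | succ k ih => rw [pow_succ, proj_ker_mul J (by rw [map_pow, hg, one_pow]) hg, ih, succ_nsmul]
  refine Subtype.ext (Subtype.ext (sub_left_injective (b := (1 : Matrix ι ι R)) ?_))
  refine (key p).trans ?_
  show _ = (1 : Matrix ι ι R) - 1
  rw [sub_self]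
  ext a b
  simp [CharP.cast_eq_zero]

theorem blockHom_cong {c : R} {g : SpecialLinearGroup (Out J) R} :
    blockHom J g ∈ cong c ↔ g ∈ cong c := by
  rw [mem_cong, mem_cong]
  constructor
  · intro h a b
    have h' := h a.1 b.1
    rw [blockHom_out J g a b] at h'
    simpa [Matrix.one_apply, Subtype.ext_iff] using h'
  · intro h a b
    by_cases hab : a ∈ J ∨ b ∈ J
    · rw [blockHom_in J g hab, sub_self]; exact dvd_zero c
    push Not at hab
    have h1 := h ⟨a, hab.1⟩ ⟨b, hab.2⟩
    rw [← blockHom_out J g ⟨a, hab.1⟩ ⟨b, hab.2⟩] at h1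
    simpa [Matrix.one_apply, Subtype.ext_iff] using h1

theorem proj_cong {c : R} {g : stab (R := R) J} (hg : (g : SpecialLinearGroup ι R) ∈ cong c) :
    proj J g ∈ cong c :=
  mem_cong.2 fun a b => by
    rw [proj_apply]
    simpa [Matrix.one_apply, Subtype.ext_iff] using mem_cong.1 hg a.1 b.1

/-- An element fixing `J` is a kernel element times a block element. -/
theorem stab_decomp {c : R} {g : SpecialLinearGroup ι R} (hJ : g ∈ stab J) (hc : g ∈ cong c) :
    ∃ (n : stab (R := R) J) (b : SpecialLinearGroup (Out J) R), proj J n = 1 ∧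
      (n : SpecialLinearGroup ι R) ∈ cong c ∧ b ∈ cong c ∧
      g = (n : SpecialLinearGroup ι R) * blockHom J b := by
  set b := proj J ⟨g, hJ⟩ with hb
  have hbc : b ∈ cong c := proj_cong J hc
  refine ⟨⟨g, hJ⟩ * ⟨blockHom J b, blockHom_mem_stab J b⟩⁻¹, b, ?_, ?_, hbc, ?_⟩
  · rw [map_mul, map_inv, proj_blockHom, hb, mul_inv_cancel]
  · exact mul_mem hc (inv_mem ((blockHom_cong J).2 hbc))
  · show g = g * (blockHom J b)⁻¹ * blockHom J b
    rw [inv_mul_cancel_right]

end Vale.Agent.P067.Frames
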