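import Vale.Agent.P067.Frames.Trans

/-!
A finite set of vertices, fewer than the dimension less one, has a common cone point in the
complex of congruent frames.
-/

namespace Vale.Agent.P067.Frames

open Matrix

variable {ι : Type} [Fintype ι] [DecidableEq ι]
variable {R : Type} [CommRing R] [IsDomain R] [IsPrincipalIdealRing R]

/-- Two functionals killing `W` which are dual to two vectors. -/
theorem exists_dual_pair (W : Finset (ι → R)) (hW : W.card + 2 ≤ Fintype.card ι) :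
    ∃ φ ψ y z : ι → R, (∀ v ∈ W, φ ⬝ᵥ v = 0) ∧ (∀ v ∈ W, ψ ⬝ᵥ v = 0) ∧
      φ ⬝ᵥ y = 1 ∧ φ ⬝ᵥ z = 0 ∧ ψ ⬝ᵥ y = 0 ∧ ψ ⬝ᵥ z = 1 := by
  classical
  let E : (ι → R) →ₗ[R] (W → R) := Matrix.mulVecLin (Matrix.of fun (v : W) i => v.1 i)
  have hE : ∀ φ, φ ∈ LinearMap.ker E → ∀ v ∈ W, φ ⬝ᵥ v = 0 := fun φ hφ v hv => by
    have h := congrFun (LinearMap.mem_ker.1 hφ) ⟨v, hv⟩
    rw [dotProduct_comm]; simpa [E, Matrix.mulVec] using h
  have hproj : Module.Projective R (LinearMap.range E) := inferInstance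
  obtain ⟨σ, hσ⟩ := Module.projective_lifting_property E.rangeRestrict LinearMap.id
    (LinearMap.surjective_rangeRestrict E)
  let π : (ι → R) →ₗ[R] LinearMap.ker E :=
    LinearMap.codRestrict _ (LinearMap.id - σ ∘ₗ E.rangeRestrict) fun x => by
      have h := congrArg Subtype.val (LinearMap.congr_fun hσ (E.rangeRestrict x))
      have h' : E (σ (E.rangeRestrict x)) = E x := h
      simp [h']
  have hπ : ∀ x : LinearMap.ker E, π x = x := fun x => by
    have hx : E.rangeRestrict (x : ι → R) = 0 := Subtype.ext (by simp)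
    exact Subtype.ext (by simp [π, hx])
  let b := Module.Free.chooseBasis R (LinearMap.ker E)
  have hrank : 2 ≤ Fintype.card (Module.Free.ChooseBasisIndex R (LinearMap.ker E)) := by
    rw [← Module.finrank_eq_card_chooseBasisIndex]
    have h1 := (LinearMap.ker E).finrank_quotient_add_finrank
    rw [(LinearMap.quotKerEquivRange E).finrank_eq, Module.finrank_pi] at h1
    have h2 : Module.finrank R (LinearMap.range E) ≤ W.card := by
      refine (Submodule.finrank_le _).trans (le_of_eq ?_)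
      rw [Module.finrank_pi, Fintype.card_coe]
    omega
  obtain ⟨p, q, hpq⟩ := Fintype.exists_pair_of_one_lt_card (show 1 < Fintype.card (Module.Free.ChooseBasisIndex R (LinearMap.ker E)) by omega)
  let d : Module.Free.ChooseBasisIndex R (LinearMap.ker E) → ι → R := fun p i =>
    b.coord p (π (Pi.single i 1))
  have hd : ∀ p (x : LinearMap.ker E), (x : ι → R) ⬝ᵥ d p = b.repr x p := fun p x => by
    conv_rhs => rw [← hπ x, pi_eq_sum_univ' (x : ι → R)]
    simp [d, dotProduct, map_sum, Finsupp.finsetSum_apply]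
  refine ⟨b p, b q, d p, d q, hE _ (b p).2, hE _ (b q).2, ?_, ?_, ?_, ?_⟩ <;>
    simp [hd, hpq, Ne.symm hpq]

/-- A congruent vector with a functional which is one on it and kills `W`. -/
theorem exists_cone_vec {π : R} (hπ : Prime π) (s : ℕ) (W : Finset (ι → R))
    (hW : W.card + 2 ≤ Fintype.card ι) :
    ∃ (w φ : ι → R) (j : ι), (∀ i, π ^ s ∣ w i - e j i) ∧ (∀ v ∈ W, φ ⬝ᵥ v = 0) ∧
      φ ⬝ᵥ w = 1 := by
  obtain ⟨φ, ψ, y, z, hφ, hψ, hφy, hφz, hψy, hψz⟩ := exists_dual_pair W hW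
  obtain ⟨j, hj⟩ : ∃ j, ¬ π ∣ φ j := by
    by_contra h
    push Not at h
    refine hπ.not_dvd_one (hφy ▸ ?_)
    exact Finset.dvd_sum fun i _ => (h i).mul_right _
  set c := π ^ s
  have hjc : IsCoprime (φ j) c :=
    (((hπ.irreducible).coprime_iff_not_dvd.2 hj).symm).pow_right
  obtain ⟨a, m, ham⟩ := hjc
  -- `a` inverts `φ j` modulo `c`
  have hac : IsCoprime a c := ⟨φ j, m, by linear_combination ham⟩
  obtain ⟨A, B, hAB⟩ := hac
  set χ : ι → R := a • φ + c • ψ with hχ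
  set y' : ι → R := A • y + B • z with hy'
  have hχy : χ ⬝ᵥ y' = 1 := by
    simp only [hχ, hy', add_dotProduct, dotProduct_add, smul_dotProduct, dotProduct_smul,
      smul_eq_mul, hφy, hφz, hψy, hψz]
    linear_combination hAB
  have hχj : χ j = 1 - c * (m - ψ j) := by
    simp [hχ]; linear_combination ham
  refine ⟨e j + (c * (m - ψ j)) • y', χ, j, fun i => ⟨(m - ψ j) * y' i, ?_⟩, fun v hv => ?_, ?_⟩
  · simp; ring
  · simp [hχ, add_dotProduct, smul_dotProduct, hφ v hv, hψ v hv]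
  · rw [dotProduct_add, dot_e, dotProduct_smul, hχy, hχj, smul_eq_mul]
    ring

variable [DecidableEq R]

/-- The common cone point. -/
theorem frame_cone {π : R} (hπ : Prime π) {s : ℕ} (hs : s ≠ 0)
    (hn : 3 ≤ Fintype.card ι) (W : Finset (ι → R))
    (hW : W.card + 2 ≤ Fintype.card ι) :
    ∃ w, w ∉ W ∧ IsFrame (π ^ s) ({w} : Finset (ι → R)) ∧ ∀ σ, σ ⊆ W → IsFrame (π ^ s) σ →
      σ.card + 3 ≤ Fintype.card ι → IsFrame (π ^ s) (insert w σ) := by
  obtain ⟨w, φ, j, hw, hφ, hφw⟩ := exists_cone_vec hπ s W hW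
  have hc : ¬ IsUnit (π ^ s) := fun h => hπ.not_isUnit ((isUnit_pow_iff hs).1 h)
  have key : ∀ σ, σ ⊆ W → IsFrame (π ^ s) σ → σ.card + 3 ≤ Fintype.card ι →
      IsFrame (π ^ s) (insert w σ) := by
    rintro σ hσ ⟨g, hg, J, rfl⟩ hcard
    rw [frame_card] at hcard
    set a : ι → R := (g : Matrix ι ι R)ᵀ *ᵥ φ with ha
    set u : ι → R := ((g⁻¹ : SpecialLinearGroup ι R) : Matrix ι ι R) *ᵥ w with hu
    have hgu : (g : Matrix ι ι R) *ᵥ u = w := by
      rw [hu, ← mulVec_mul, mul_inv_cancel]; exact one_mulVec w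
    have hag : ∀ x, a ⬝ᵥ x = φ ⬝ᵥ ((g : Matrix ι ι R) *ᵥ x) := fun x => by
      rw [ha, mulVec_transpose, ← dotProduct_mulVec]
    have haJ : ∀ b ∈ J, a b = 0 := fun b hb => by
      rw [← dot_e a b, hag]
      exact hφ _ (hσ (Finset.mem_image_of_mem _ hb))
    have hau : a ⬝ᵥ u = 1 := by rw [hag, hgu, hφw]
    have hu_cong : ∀ i, π ^ s ∣ u i - e j i := by
      intro i
      have h1 : ∀ i, π ^ s ∣ (((g⁻¹ : SpecialLinearGroup ι R) : Matrix ι ι R) *ᵥ (w - e j)) i :=
        fun i => Finset.dvd_sum fun b _ => (hw b).mul_left _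
      have h2 := cong_col (inv_mem hg) i j
      rw [show u i - e j i = (((g⁻¹ : SpecialLinearGroup ι R) : Matrix ι ι R) *ᵥ (w - e j)) i +
        ((((g⁻¹ : SpecialLinearGroup ι R) : Matrix ι ι R) *ᵥ e j) i - e j i) by
          rw [mulVec_sub, Pi.sub_apply, hu]; ring]
      exact dvd_add (h1 i) h2
    have hjJ : j ∉ J := fun hjJ => by
      refine hc (isUnit_of_dvd_one ?_)
      have h1 : π ^ s ∣ a ⬝ᵥ (u - e j) := Finset.dvd_sum fun b _ => (hu_cong b).mul_left _
      rwa [dotProduct_sub, hau, dot_e, haJ j hjJ, sub_zero] at h1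
    obtain ⟨k, hk, hkJ, hku⟩ := exists_move hc hjJ hcard hu_cong haJ hau
    have hk' : ∀ {x y : ι → R}, (k : Matrix ι ι R) *ᵥ x = y →
        ((g * k⁻¹ : SpecialLinearGroup ι R) : Matrix ι ι R) *ᵥ y = (g : Matrix ι ι R) *ᵥ x := by
      intro x y hxy
      rw [mulVec_mul, ← hxy, mulVec_inv]
    refine ⟨g * k⁻¹, mul_mem hg (inv_mem hk), insert j J, ?_⟩
    rw [Finset.image_insert, hk' hku, hgu]
    congr 1
    exact Finset.image_congr fun b hb => (hk' (hkJ b hb)).symm
  refine ⟨w, fun hwW => ?_, ?_, key⟩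
  · exact one_ne_zero (hφw.symm.trans (hφ w hwW))
  · exact key ∅ (Finset.empty_subset _) ⟨1, one_mem _, ∅, rfl⟩ (by
      rw [Finset.card_empty]; omega)

end Vale.Agent.P067.Frames
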