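import Mathlib

/-!
Congruence subgroups of the special linear group, transvections and congruent frames.
-/

namespace Vale.Agent.P067.Frames

open Matrix

variable {ι : Type} [Fintype ι] [DecidableEq ι] {R : Type} [CommRing R]

/-- The principal congruence subgroup modulo `c`. -/
def cong (c : R) : Subgroup (SpecialLinearGroup ι R) :=
  (SpecialLinearGroup.map (Ideal.Quotient.mk (Ideal.span ({c} : Set R)))).ker

theorem mem_cong {c : R} {g : SpecialLinearGroup ι R} :
    g ∈ cong c ↔ ∀ a b, c ∣ (g : Matrix ι ι R) a b - (1 : Matrix ι ι R) a b := by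
  have key : ∀ a b, (Ideal.Quotient.mk (Ideal.span ({c} : Set R)) ((g : Matrix ι ι R) a b) =
      (1 : Matrix ι ι (R ⧸ Ideal.span ({c} : Set R))) a b) ↔
      c ∣ (g : Matrix ι ι R) a b - (1 : Matrix ι ι R) a b := fun a b => by
    rw [← Ideal.mem_span_singleton, ← Ideal.Quotient.eq]
    rcases eq_or_ne a b with rfl | h
    · simp
    · simp [h]
  constructor
  · intro h a b
    have h' : SpecialLinearGroup.map (Ideal.Quotient.mk (Ideal.span ({c} : Set R))) g = 1 := h
    exact (key a b).1 (congrFun (congrFun (congrArg Subtype.val h') a) b)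
  · intro h
    show SpecialLinearGroup.map (Ideal.Quotient.mk (Ideal.span ({c} : Set R))) g = 1
    exact Subtype.ext (Matrix.ext fun a b => (key a b).2 (h a b))

instance cong_normal (c : R) : (cong c : Subgroup (SpecialLinearGroup ι R)).Normal :=
  MonoidHom.normal_ker _

/-- The basis vector at `b`. -/
def e (b : ι) : ι → R := Pi.single b 1

theorem dot_e (r : ι → R) (b : ι) : r ⬝ᵥ e b = r b := dotProduct_single_one r b

/-- The transvection `1 + v rᵀ`. -/
def tv (v r : ι → R) (h : r ⬝ᵥ v = 0) : SpecialLinearGroup ι R :=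
  ⟨1 + vecMulVec v r, by
    rw [vecMulVec_eq Unit, det_one_add_replicateCol_mul_replicateRow, h, add_zero]⟩

theorem tv_mulVec (v r : ι → R) (h : r ⬝ᵥ v = 0) (u : ι → R) :
    (tv v r h : Matrix ι ι R) *ᵥ u = u + (r ⬝ᵥ u) • v := by
  show (1 + vecMulVec v r) *ᵥ u = _
  rw [add_mulVec, one_mulVec, vecMulVec_mulVec]
  simp

theorem tv_mem_cong {c : R} {v r : ι → R} {h : r ⬝ᵥ v = 0}
    (hd : ∀ a b, c ∣ v a * r b) : tv v r h ∈ cong c :=
  mem_cong.2 fun a b => by simpa [tv, vecMulVec_apply] using hd a b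

theorem tv_fix {v r : ι → R} {h : r ⬝ᵥ v = 0} {b : ι} (hb : r b = 0) :
    (tv v r h : Matrix ι ι R) *ᵥ e b = e b := by
  rw [tv_mulVec, dot_e, hb, zero_smul, add_zero]

theorem mulVec_mul (g h : SpecialLinearGroup ι R) (u : ι → R) :
    ((g * h : SpecialLinearGroup ι R) : Matrix ι ι R) *ᵥ u = (g : Matrix ι ι R) *ᵥ ((h : Matrix ι ι R) *ᵥ u) :=
  (mulVec_mulVec u (g : Matrix ι ι R) (h : Matrix ι ι R)).symm

theorem mulVec_inv (g : SpecialLinearGroup ι R) (u : ι → R) :
    ((g⁻¹ : SpecialLinearGroup ι R) : Matrix ι ι R) *ᵥ ((g : Matrix ι ι R) *ᵥ u) = u := by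
  rw [← mulVec_mul, inv_mul_cancel]
  exact one_mulVec u

theorem mulVec_inj (g : SpecialLinearGroup ι R) : Function.Injective fun u : ι → R => (g : Matrix ι ι R) *ᵥ u :=
  fun u v huv => by
    rw [← mulVec_inv g u, ← mulVec_inv g v]
    exact congrArg _ huv

/-- A column of a congruent matrix is congruent to the basis vector. -/
theorem cong_col {c : R} {g : SpecialLinearGroup ι R} (hg : g ∈ cong c) (a b : ι) :
    c ∣ ((g : Matrix ι ι R) *ᵥ e b) a - e (R := R) b a := by
  have h := mem_cong.1 hg a b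
  rwa [e, mulVec_single_one, Pi.single_apply, ← Matrix.one_apply]

/-- A congruent frame: part of the columns of a congruent matrix. -/
def IsFrame [DecidableEq R] (c : R) (σ : Finset (ι → R)) : Prop :=
  ∃ g : SpecialLinearGroup ι R, g ∈ cong c ∧
    ∃ J : Finset ι, σ = J.image fun b => (g : Matrix ι ι R) *ᵥ e b

theorem frame_down [DecidableEq R] {c : R} {σ τ : Finset (ι → R)} (h : IsFrame c σ) (hτ : τ ⊆ σ) :
    IsFrame c τ := by
  obtain ⟨g, hg, J, rfl⟩ := h
  refine ⟨g, hg, J.filter fun b => (g : Matrix ι ι R) *ᵥ e b ∈ τ, ?_⟩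
  ext v
  simp only [Finset.mem_image, Finset.mem_filter]
  constructor
  · intro hv
    obtain ⟨b, hb, rfl⟩ := Finset.mem_image.1 (hτ hv)
    exact ⟨b, ⟨hb, hv⟩, rfl⟩
  · rintro ⟨b, ⟨-, hb⟩, rfl⟩
    exact hb

theorem frame_act [DecidableEq R] {c : R} {σ : Finset (ι → R)} (h : IsFrame c σ)
    {k : SpecialLinearGroup ι R} (hk : k ∈ cong c) :
    IsFrame c (σ.image fun v => (k : Matrix ι ι R) *ᵥ v) := by
  obtain ⟨g, hg, J, rfl⟩ := h
  refine ⟨k * g, mul_mem hk hg, J, ?_⟩
  rw [Finset.image_image]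
  exact Finset.image_congr fun b _ => (mulVec_mul k g _).symm

omit [Fintype ι] in
theorem e_inj [Nontrivial R] : Function.Injective (e (R := R) : ι → ι → R) := fun a b h => by
  by_contra hab
  have := congrFun h a
  simp [e, Pi.single_eq_of_ne hab] at this

/-- Congruent images of different basis vectors differ. -/
theorem col_inj {c : R} (hc : ¬ IsUnit c) {g g' : SpecialLinearGroup ι R} (hg : g ∈ cong c)
    (hg' : g' ∈ cong c) {a b : ι} (h : (g : Matrix ι ι R) *ᵥ e a = (g' : Matrix ι ι R) *ᵥ e b) : a = b := by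
  by_contra hab
  refine hc (isUnit_of_dvd_one ?_)
  have h1 := cong_col hg a a
  have h2 := cong_col hg' a b
  rw [h] at h1
  simp only [e, Pi.single_eq_same, Pi.single_eq_of_ne hab] at h1 h2
  simpa using dvd_sub h2 h1

theorem frame_card [DecidableEq R] (g : SpecialLinearGroup ι R) [Nontrivial R] (J : Finset ι) :
    (J.image fun b => (g : Matrix ι ι R) *ᵥ e b).card = J.card :=
  Finset.card_image_of_injective _ fun _ _ h => e_inj (mulVec_inj g h)

/-- In the congruence subgroup the stabiliser of a frame fixes it pointwise. -/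
theorem frame_fix [DecidableEq R] {c : R} (hc : ¬ IsUnit c) {g k : SpecialLinearGroup ι R}
    (hg : g ∈ cong c) (hk : k ∈ cong c) {J : Finset ι}
    (h : (J.image fun b => (g : Matrix ι ι R) *ᵥ e b).image (fun v => (k : Matrix ι ι R) *ᵥ v) = J.image fun b => (g : Matrix ι ι R) *ᵥ e b)
    {b : ι} (hb : b ∈ J) : (k : Matrix ι ι R) *ᵥ ((g : Matrix ι ι R) *ᵥ e b) = (g : Matrix ι ι R) *ᵥ e b := by
  have hm : (k : Matrix ι ι R) *ᵥ ((g : Matrix ι ι R) *ᵥ e b) ∈ J.image fun b => (g : Matrix ι ι R) *ᵥ e b :=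
    h ▸ Finset.mem_image_of_mem (fun v => (k : Matrix ι ι R) *ᵥ v) (Finset.mem_image_of_mem (fun b => (g : Matrix ι ι R) *ᵥ e b) hb)
  obtain ⟨a, -, ha⟩ := Finset.mem_image.1 hm
  have hab : a = b := by
    rw [← mulVec_mul] at ha
    exact col_inj hc hg (mul_mem hk hg) ha
  exact hab ▸ ha.symm

end Vale.Agent.P067.Frames
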