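import Vale.Agent.P067.Frames.Basic

/-!
The congruence subgroup moves a congruent unimodular vector to its basis vector, fixing the basis
vectors outside the support.
-/

namespace Vale.Agent.P067.Frames

open Matrix

variable {ι : Type} [Fintype ι] [DecidableEq ι]
variable {R : Type} [CommRing R] [IsDomain R] [IsPrincipalIdealRing R]

omit [Fintype ι] [DecidableEq ι] in
/-- Stable range: a multiple of `D` makes `b` coprime to `a`. -/
theorem exists_coprime_add {a b D : R} (ha : a ≠ 0)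
    (h : ∀ p : R, Prime p → p ∣ a → p ∣ b → ¬ p ∣ D) : ∃ x, IsCoprime a (b + x * D) := by
  classical
  obtain ⟨l, hl, u, hu⟩ := UniqueFactorizationMonoid.exists_prime_factors a ha
  refine ⟨(l.filter fun p => ¬ p ∣ b).prod, isCoprime_of_prime_dvd (fun h0 => ha h0.1)
    fun p hp hpa hpx => ?_⟩
  have hpl : p ∣ l.prod := by rwa [← hu, Units.dvd_mul_right] at hpa
  by_cases hpb : p ∣ b
  · rcases hp.dvd_or_dvd ((dvd_add_right hpb).1 hpx) with h1 | h1
    · obtain ⟨q, hq, hpq⟩ := hp.exists_mem_multiset_dvd h1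
      rw [Multiset.mem_filter] at hq
      exact hq.2 ((hp.associated_of_dvd (hl q hq.1) hpq).dvd'.trans hpb)
    · exact h p hp hpa hpb h1
  · obtain ⟨q, hq, hpq⟩ := hp.exists_mem_multiset_dvd hpl
    have hqb : ¬ q ∣ b := fun h0 => hpb (hpq.trans h0)
    have h1 : p ∣ (l.filter fun p => ¬ p ∣ b).prod :=
      hpq.trans (Multiset.dvd_prod (Multiset.mem_filter.2 ⟨hq, hqb⟩))
    exact hpb ((dvd_add_left (h1.mul_right D)).1 hpx)

/-- Transitivity. -/
theorem exists_move {c : R} (hc : ¬ IsUnit c) {J : Finset ι} {j : ι} (hj : j ∉ J)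
    (hJ : J.card + 3 ≤ Fintype.card ι) {u a : ι → R} (hu : ∀ i, c ∣ u i - e j i)
    (ha : ∀ b ∈ J, a b = 0) (hau : a ⬝ᵥ u = 1) :
    ∃ g : SpecialLinearGroup ι R, g ∈ cong c ∧
      (∀ b ∈ J, (g : Matrix ι ι R) *ᵥ e b = e b) ∧ (g : Matrix ι ι R) *ᵥ u = e j := by
  obtain ⟨k, hk, l, hl, hkl⟩ : ∃ k ∈ (insert j J)ᶜ, ∃ l ∈ (insert j J)ᶜ, k ≠ l := by
    refine Finset.one_lt_card.1 ?_
    rw [Finset.card_compl, Finset.card_insert_of_notMem hj]
    omega
  simp only [Finset.mem_compl, Finset.mem_insert, not_or] at hk hl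
  obtain ⟨hkj, hkJ⟩ := hk
  obtain ⟨hlj, hlJ⟩ := hl
  have huk : c ∣ u k := by simpa [e, Pi.single_eq_of_ne hkj] using hu k
  have hul : c ∣ u l := by simpa [e, Pi.single_eq_of_ne hlj] using hu l
  have huj : c ∣ u j - 1 := by simpa [e] using hu j
  have hj0 : u j ≠ 0 := fun h => hc (isUnit_of_dvd_one (by simpa [h] using huj))
  -- make the entry at `k` coprime to the one at `j`
  set r₀ : ι → R := fun i => if i = j ∨ i = k then 0 else a i with hr₀
  obtain ⟨x, hx⟩ := exists_coprime_add (a := u j) (b := u k) (D := c * (r₀ ⬝ᵥ u)) hj0 (by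
    intro p hp hpj hpk hpD
    have hpc : ¬ p ∣ c := fun h => hp.not_dvd_one (by simpa using dvd_sub hpj (h.trans huj))
    have hpr : p ∣ r₀ ⬝ᵥ u := (hp.dvd_or_dvd hpD).resolve_left hpc
    refine hp.not_dvd_one ?_
    have hsplit : a ⬝ᵥ u = r₀ ⬝ᵥ u + (a j * u j + a k * u k) := by
      have e1 : a = r₀ + (Pi.single j (a j) + Pi.single k (a k)) := by
        funext i
        rcases eq_or_ne i j with rfl | hij
        · simp [hr₀, (Ne.symm hkj)]
        rcases eq_or_ne i k with rfl | hik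
        · simp [hr₀, hkj]
        simp [hr₀, hij, hik]
      conv_lhs => rw [e1]
      rw [add_dotProduct, add_dotProduct, single_dotProduct, single_dotProduct]
    rw [← hau, hsplit]
    exact dvd_add hpr (dvd_add (hpj.mul_left _) (hpk.mul_left _)))
  set r₁ : ι → R := (x * c) • r₀ with hr₁
  have h₁ : r₁ ⬝ᵥ e k = 0 := by rw [dot_e]; simp [hr₁, hr₀]
  set g₁ := tv (e k) r₁ h₁
  set u₁ : ι → R := (g₁ : Matrix ι ι R) *ᵥ u with hu₁
  have hu₁' : ∀ i, u₁ i = u i + (r₁ ⬝ᵥ u) * e k i := fun i => by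
    simp [hu₁, g₁, tv_mulVec]
  have hu1j : u₁ j = u j := by simp [hu₁', e, Pi.single_eq_of_ne (Ne.symm hkj)]
  have hu1l : u₁ l = u l := by simp [hu₁', e, Pi.single_eq_of_ne (Ne.symm hkl)]
  have hu1k : u₁ k = u k + x * (c * (r₀ ⬝ᵥ u)) := by
    simp [hu₁', e, hr₁, mul_assoc]
  rw [← hu1k, ← hu1j] at hx
  obtain ⟨P, Q, hPQ⟩ := hx
  -- make the entry at `l` equal to `c`
  set r₂ : ι → R := fun i => (c - u l) * (P * e j i + Q * e k i) with hr₂
  have h₂ : r₂ ⬝ᵥ e l = 0 := by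
    rw [dot_e]; simp [hr₂, e, Pi.single_eq_of_ne hlj, Pi.single_eq_of_ne (Ne.symm hkl)]
  set g₂ := tv (e l) r₂ h₂
  set u₂ : ι → R := (g₂ : Matrix ι ι R) *ᵥ u₁ with hu₂
  have hru : r₂ ⬝ᵥ u₁ = c - u l := by
    have e1 : r₂ = ((c - u l) * P) • e j + ((c - u l) * Q) • e k := by
      funext i; simp [hr₂]; ring
    rw [e1, add_dotProduct, smul_dotProduct, smul_dotProduct, dotProduct_comm (e j),
      dotProduct_comm (e k), dot_e, dot_e, smul_eq_mul, smul_eq_mul]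
    linear_combination (c - u l) * hPQ
  have hu2j : u₂ j = u j := by
    simp [hu₂, g₂, tv_mulVec, e, Pi.single_eq_of_ne (Ne.symm hlj), hu1j]
  have hu2l : u₂ l = c := by
    simp [hu₂, g₂, tv_mulVec, e, hru, hu1l]
  -- the last step
  obtain ⟨m, hm⟩ := huj
  set r₃ : ι → R := e j - m • e l with hr₃
  have hru₂ : r₃ ⬝ᵥ u₂ = 1 := by
    rw [hr₃, sub_dotProduct, smul_dotProduct, dotProduct_comm (e j), dotProduct_comm (e l), dot_e,
      dot_e, hu2j, hu2l, smul_eq_mul]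
    linear_combination hm
  have hrj : r₃ j = 1 := by simp [hr₃, e, Pi.single_eq_of_ne (Ne.symm hlj)]
  have h₃ : r₃ ⬝ᵥ (e j - u₂) = 0 := by rw [dotProduct_sub, dot_e, hrj, hru₂, sub_self]
  set g₃ := tv (e j - u₂) r₃ h₃
  have hg₁ : g₁ ∈ cong c := tv_mem_cong fun p q =>
    Dvd.dvd.mul_left ⟨x * r₀ q, by simp [hr₁]; ring⟩ _
  have hg₂ : g₂ ∈ cong c := tv_mem_cong fun p q =>
    Dvd.dvd.mul_left ((dvd_sub dvd_rfl hul).mul_right _) _
  have hcu₂ : ∀ i, c ∣ e j i - u₂ i := by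
    intro i
    have h1 : c ∣ r₁ ⬝ᵥ u := by
      simp only [hr₁, smul_dotProduct, smul_eq_mul]
      exact (dvd_mul_left c x).mul_right _
    have h2 : c ∣ r₂ ⬝ᵥ u₁ := hru ▸ dvd_sub dvd_rfl hul
    have e1 : e j i - u₂ i = -((u i - e j i) + (r₁ ⬝ᵥ u) * e k i + (r₂ ⬝ᵥ u₁) * e l i) := by
      simp [hu₂, g₂, tv_mulVec, hu₁']; ring
    rw [e1]
    exact dvd_neg.2 (dvd_add (dvd_add (hu i) (h1.mul_right _)) (h2.mul_right _))
  have hg₃ : g₃ ∈ cong c := tv_mem_cong fun p q => Dvd.dvd.mul_right (hcu₂ p) _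
  refine ⟨g₃ * g₂ * g₁, mul_mem (mul_mem hg₃ hg₂) hg₁, fun b hb => ?_, ?_⟩
  · have hbj : b ≠ j := fun h => hj (h ▸ hb)
    have hbk : b ≠ k := fun h => hkJ (h ▸ hb)
    have hbl : b ≠ l := fun h => hlJ (h ▸ hb)
    rw [mulVec_mul, mulVec_mul, tv_fix, tv_fix, tv_fix]
    · simp [hr₃, e, Pi.single_eq_of_ne hbj, Pi.single_eq_of_ne hbl]
    · simp [hr₂, e, Pi.single_eq_of_ne hbj, Pi.single_eq_of_ne hbk]
    · simp [hr₁, hr₀, hbj, hbk, ha b hb]
  · rw [mulVec_mul, mulVec_mul, ← hu₁, ← hu₂, tv_mulVec, hru₂, one_smul, add_sub_cancel]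

end Vale.Agent.P067.Frames
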